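import Vale.Agent.P269.Pc.Vir
import Vale.Agent.P269.Pub.Vir

/-!
# The numbered vocabulary is the public vocabulary
-/

namespace Vale.Agent.P269.Pc

theorem eIsFund : @c24 = @Pub.IsFund := (rfl)

theorem eIsVir : @c47 = @Pub.IsVir := (rfl)

theorem eIntg : @c49 = @Pub.Intg := by
  unfold c49 Pub.Intg
  rw [eIsVir, eIsFund]
  rfl

theorem eIntgE : @c50 = @Pub.IntgE := by
  unfold c50 Pub.IntgE
  rw [eIntg]
  rfl

theorem eBase : @c77 = @Pub.Base := (rfl)

theorem eChart : @c81 = @Pub.Chart := by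
  unfold c81 Pub.Chart
  rw [eIntgE, eBase]
  rfl

theorem eIsGW : @c84 = @Pub.IsGW := by
  unfold c84 Pub.IsGW
  rw [eChart]
  rfl

theorem eVirasoro : @c91 = @Pub.Virasoro := (rfl)

theorem eIsHodge : @c93 = @Pub.IsHodge := (rfl)

theorem eIsCan : @c100 = @Pub.IsCan := (rfl)

end Vale.Agent.P269.Pc
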