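import Vale.Agent.P269.San.Fin
import Vale.Agent.P269.San2.Fin
import Vale.Agent.P269.Pc.Br

/-!
# The theorem in the numbered vocabulary
-/

namespace Vale.Agent.P269.Pc

open MvPolynomial

theorem fin (N r : ℕ) (d : Fin r → ℕ) (F : Fin r → MvPolynomial (Fin (N + 1)) ℂ)
    (hF : ∀ k, (F k).IsHomogeneous (d k))
    (hs : ∀ x ∈ c2 F, LinearIndependent ℂ fun k j => eval x (pderiv j (F k)))
    (hc : ConnectedSpace (c6 F)) : c102 F d (N - r) := by
  unfold c102
  rw [eVirasoro, eIsHodge, eIsFund, eIsCan, eIsGW]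
  refine ⟨Tf.conj N r d F hF hs hc, fun hn hd => Tf.line N r d F hF hs hc hd (by omega),
    fun hn hJ hd => ?_⟩
  rw [Fintype.card_fin] at hJ
  exact Tf.cubic N r d F hF hs hc hd (by omega) (by omega)

end Vale.Agent.P269.Pc
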