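import Vale.Agent.P269.Pc.Top

/-!
# Public vocabulary, part 2: nodal curves, the global chart of the moduli space of stable maps,
Gromov-Witten invariants

A curve in `∏ ℙ(ℂ^(M i))` is given by its multicone `C ⊆ ∏ ℂ^(M i)`. The target is
`X = {x ≠ 0 | F x = 0} / ℂˣ`. A map from a curve `C` to `X` consists of a line bundle `L` on `C` and
sections `x_j` of `L` without common zero and with `F x = 0`. The stack of pointed nodal curves with
a line bundle `L` is presented as `base / G`: the curve is embedded by bases of the sections of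
`A_none = (ω_log ⊗ L³)^k` and `A_some = A_none ⊗ L`. The moduli space of stable maps is `sol / G`,
the zero set of a section over the smooth space `base / G`, and the complex `[fields → obs]` is the
standard relative obstruction theory.
-/

noncomputable section

namespace Vale.Agent.P269.Pc

open Set Function Topology Filter MvPolynomial Classical

variable {ι σ J K E F Z T : Type} [NormedAddCommGroup E] [NormedSpace ℂ E] [NormedAddCommGroup F]
  [NormedSpace ℂ F] [Fintype ι] [Fintype σ] [Fintype J] {n : ℕ}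

section

variable (π : E → F) (C : Set E)

/-- (IsBranch) A holomorphic disc in the multicone `C` whose image under the projection `π` is immersed. -/
def c74 (γ : ℂ → E) : Prop :=
  AnalyticAt ℂ γ 0 ∧ (∀ᶠ t in 𝓝 0, γ t ∈ C) ∧ LinearIndependent ℂ ![π (γ 0), π (deriv γ 0)]

/-- (IsCross) Two branches through `c` with different tangent lines. -/
def c75 (c : E) (γ δ : ℂ → E) : Prop :=
  c74 π C γ ∧ c74 π C δ ∧ γ 0 = c ∧ δ 0 = c ∧
    LinearIndependent ℂ ![π c, π (deriv γ 0), π (deriv δ 0)]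

variable (nz : E → Prop) (act : (ι → ℂ) → E → E) (pol : (ι → ℕ) → Set (E → ℂ)) (g : ℤ) (m : ι → ℤ)

/-- (IsCurve) `C` is the multicone over a closed, possibly disconnected, nodal curve (near each point one smooth
branch or two branches with different tangents) of arithmetic genus `g` and multidegree `m`, on which
every `O(a)`, `a ≠ 0`, has only polynomial sections and `h⁰ = a · m + 1 - g`. Here `nz c` says that
all components of `c` are non-zero, `act` is the action of the torus and `pol a` are the polynomials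
of multidegree `a`. -/
def c76 : Prop :=
  (∀ c ∈ C, nz c) ∧ (∀ c ∈ closure C, nz c → c ∈ C) ∧
  (∀ t : ι → ℂ, (∀ i, t i ≠ 0) → ∀ c ∈ C, act t c ∈ C) ∧
  (∀ c ∈ C, ∃ γ δ, (c74 π C γ ∧ γ 0 = c ∧ δ = γ ∨ c75 π C c γ δ) ∧
    ∀ ε > 0, ∀ᶠ y in 𝓝[C] c, ∃ t z, ‖z‖ < ε ∧ (y = act t (γ z) ∨ y = act t (δ z))) ∧
  ∀ a : ι → ℕ, (∃ i, a i ≠ 0) →
    (∀ f : E → ℂ, ContinuousOn f C →
      (∀ t : ι → ℂ, (∀ i, t i ≠ 0) → ∀ c ∈ C, f (act t c) = (∏ i, t i ^ a i) * f c) →
      (∀ γ, c74 π C γ → AnalyticAt ℂ (f ∘ γ) 0) → ∃ q ∈ pol a, ∀ c ∈ C, f c = q c) ∧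
    (Set.finrank ℂ ((fun (q : E → ℂ) (c : C) => q c) '' pol a) : ℤ) = ∑ i, a i * m i + 1 - g

variable {h : Option J → ℕ} {G : Option J → Type} (v : ∀ l, G l → E → ℂ)
  (u : Z → ∀ l, (Fin (h l) → ℂ) → ℂ) (Q : ∀ l, G l → Fin (h l) → ℂ)

/-- (Gr) The points `c` of the multicone over the curve with Hilbert points `Q` (the restriction maps from
the forms `μ` of degree `a l`, with values `v l μ c`, to `H⁰(C, O(a l)) = ℂ^(h l)`), together with
the evaluations `u z l` at `c` of the sections of `O(a l)`. -/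
def c72 : Set (E × Z) := {z | nz z.1 ∧ ∀ l μ, u z.2 l (Q l μ) = v l μ z.1}

/-- (Base) The smooth space: `Q` are the framed Hilbert points of a nodal curve, the marked points `p` are
distinct smooth points, `Ξ` is a nowhere vanishing section of `ω_log^(-k) ⊗ A_none ⊗ L^(-3 k)`:
along a branch `γ` it is `(γ ∧ ξ)^k` for a `k`-fold vector field `ξ^k = f(t) (∂_t)^k`, or
`f(t) (t ∂_t)^k` at a node or a marked point, with `f(0) ≠ 0` and opposite residues at the nodes. -/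
def c77 (k : ℕ) (w : T → E → E → ℂ) (p : Fin n → E) (Ξ : T → Fin (h none) → ℂ) : Prop :=
  let Γ := c72 nz v u Q
  let C := Prod.fst '' Γ
  let N := fun c => ∃ γ δ, c75 π C c γ δ
  let q := fun c => N c ∨ ∃ i t, c = act t (p i)
  let L := fun (γ : ℂ → E) r => ∃ f : ℂ → ℂ, AnalyticAt ℂ f 0 ∧ f 0 = r ∧
    ∀ᶠ t in 𝓝 0, ∀ z, (γ t, z) ∈ Γ → ∀ μ, u z none (Ξ μ) =
      f t * (if q (γ 0) then t else 1) ^ k * w μ (γ t) (deriv γ t)
  (∀ l, Surjective (Q l)) ∧ (∀ l μ, (∀ c ∈ C, v l μ c = 0) → ∀ s, Q l μ s = 0) ∧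
    c76 π C nz act pol g m ∧ (∀ i, p i ∈ C ∧ ¬N (p i)) ∧
    (∀ i j t, p i = act t (p j) → i = j) ∧ (∀ γ, c74 π C γ → ∃ r ≠ 0, L γ r) ∧
    ∀ c γ δ r s, c75 π C c γ δ → L γ r → L δ s → r = (-1) ^ k * s

end

/-- (spn) The span of a set of functions. -/
def c36 (S : Set (Z → T → ℂ)) : Set (Z → T → ℂ) := Submodule.span ℂ S

/-- (prods) The products of `a i` functions in `S i`. -/
def c78 (S : ι → Set (Z → ℂ)) (a : ι → ℕ) : Set (Z → ℂ) :=
  {f | ∃ φ : (Σ i, Fin (a i)) → Z → ℂ, (∀ s, φ s ∈ S s.1) ∧ f = fun z => ∏ s, φ s z}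

/-- (gens) The products of a function in `S₁`, one in `c78 U α` and one in `S₃ α`, `α ∈ s`. -/
def c79 (s : Finset (J →₀ ℕ)) (S₁ : Set (T → ℂ)) (U : J → Set (Z → ℂ))
    (S₃ : (J →₀ ℕ) → Set (E → ℂ)) : Set (E × Z → T → ℂ) :=
  {f | ∃ α ∈ s, ∃ f₁ ∈ S₁, ∃ f₂ ∈ c78 U α, ∃ f₃ ∈ S₃ α, f = fun z ζ => f₁ ζ * f₂ z.2 * f₃ z.1}

/-- (IntgE) The invariant `c49` of the moduli space of solutions. A point `w` of the ambient space consists of
Hilbert points `w.1`, marked points `w.2.1`, a tensor `w.2.2.1` and thickened fields `w.2.2.2`; the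
group changes bases (`A₁`, `A₂`) and rescales the marked points. The curve `Γ w.1` consists of
points `z = (c, u)`, and the fields `x j z μ` are linear in the test form `μ : G` with value
`v μ c`. A solution is a point of `base` with `x j z μ = y j * v μ c`, `y` in the cone over the
target. The section consists of the Koszul relations and the homogenised equations `hm` of the
target; `pol` is a finite dimensional space of polynomial functions, `van` are those vanishing on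
the curve, and `obs / van` are the sections of the image of the differential of the equations, the
quotient of the sheaf of fields by the pull-back of the tangent bundle of the cone. -/
def c50 {A₁ A₂ A' B₁ B₃ B₄ Y D G : Type} [NormedRing A₁] [NormedAlgebra ℂ A₁]
    [NormedRing A₂] [NormedAlgebra ℂ A₂] [NormedRing A'] [NormedAlgebra ℂ A'] [NormedAddCommGroup B₁]
    [NormedSpace ℂ B₁] [NormedAddCommGroup B₃] [NormedSpace ℂ B₃] [NormedAddCommGroup B₄]
    [NormedSpace ℂ B₄] [TopologicalSpace Y]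
    (t₁ : B₁ → A₂ → A₁ → B₁) (t₃ : B₃ → A₂ → A₁ → B₃) (t₄ : B₄ → A₂ → A₁ → B₄)
    (aE iE : A₁ → E → E) (aZ : A₂ → Z → Z) (aG : A₁ → G → G) (aD : A₁ → D → D)
    (act : A' → E → E) (dir : E → Set E) (Γ : B₁ → Set (E × Z))
    (base : B₁ → (Fin n → E) → B₃ → Prop) (S : Set (J → ℂ)) (π : S → Y)
    (v : G → E → ℂ) (x : B₄ → J → Z → G → ℂ) (dual : Set (G → ℂ))
    (u : J → Set (Z → ℂ)) (gen : K → Set (E × Z → D → ℂ)) (η : D → G)
    (hm : K → D → E → (J → ℂ) → ℂ) :=
  let X := fun (w : B₁ × (Fin n → E) × B₃ × B₄) j (z : E × Z) => x w.2.2.2 j z.2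
  let Sol := fun w z (y : J → ℂ) => ∀ j μ, X w j z μ = y j * v μ z.1
  let bs := {w : B₁ × (Fin n → E) × B₃ × B₄ | base w.1 w.2.1 w.2.2.1}
  let ρ := fun i (s : A₁ × A₂ × (Fin n → A')) c => act (s.2.2 i) (aE s.1 c)
  let pol : Set ((J → E × Z → G × G → ℂ) × (K → E × Z → D → ℂ)) :=
    {κ | (∀ j, κ.1 j ∈ c36 {f | ∃ l ∈ dual, ∃ l' ∈ dual, ∃ μ, ∃ φ ∈ u j,
      f = fun z m => l m.1 * l' m.2 * v μ z.1 * φ z.2}) ∧ ∀ k, κ.2 k ∈ c36 (gen k)}
  c49 (P := (J → E × Z → G × G → ℂ) × (K → E × Z → D → ℂ))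
    (fun s (w : B₁ × (Fin n → E) × B₃ × B₄) =>
      (t₁ w.1 s.2.1 s.1, fun i => ρ i s (w.2.1 i), t₃ w.2.2.1 s.2.1 s.1, t₄ w.2.2.2 s.2.1 s.1))
    (fun s κ => (fun j z m => κ.1 j (iE s.1 z.1, aZ s.2.1 z.2) (aG s.1 m.1, aG s.1 m.2),
      fun k z ζ => κ.2 k (iE s.1 z.1, aZ s.2.1 z.2) (aD s.1 ζ)))
    bs {w | w ∈ bs ∧ ∀ z ∈ Γ w.1, ∃ y ∈ S, Sol w z y} pol
    (fun w => {κ | κ ∈ pol ∧ ∀ z ∈ Γ w.1, (∀ j m, κ.1 j z m = 0) ∧ ∀ k ζ, κ.2 k z ζ = 0})
    (fun w => {κ | κ ∈ pol ∧ ∀ z ∈ Γ w.1, ∃ y : J → G → ℂ, (∀ j, y j ∈ dual) ∧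
      (∀ j m, κ.1 j z m = v m.2 z.1 * y j m.1 - v m.1 z.1 * y j m.2) ∧ ∀ k ζ, κ.2 k z ζ =
        deriv (fun ε : ℂ => hm k ζ z.1 fun j => X w j z (η ζ) + ε * y j (η ζ)) 0})
    (fun w => (fun j z m => v m.2 z.1 * X w j z m.1 - v m.1 z.1 * X w j z m.2,
      fun k z ζ => hm k ζ z.1 fun j => X w j z (η ζ)))
    act (fun w => Prod.fst '' Γ w.1)
    (fun w c y => ∃ z, (c, z) ∈ Γ w.1 ∧ ∃ y' : S, Sol w (c, z) y' ∧ y = π y') (fun w => w.2.1) ρ dir

variable (E F) in
/-- (Hom) Continuous linear maps. -/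
def c27 : Type := E →L[ℂ] F

instance c59 : NormedAddCommGroup (c27 E F) := ContinuousLinearMap.toNormedAddCommGroup

instance c62 : NormedSpace ℂ (c27 E F) := ContinuousLinearMap.toNormedSpace

instance c56 : NormedRing (c27 E E) := ContinuousLinearMap.toNormedRing

instance c57 : NormedAlgebra ℂ (c27 E E) := ContinuousLinearMap.toNormedAlgebra

/-- (Hom.ap) The value of a linear map. -/
def c27.c31 (f : c27 E F) (x : E) : F := f.toFun x

/-- (Hom.cm) The composition `f ∘ s`. -/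
def c27.c65 (f : c27 E F) (s : c27 E E) : c27 E F := f ∘L s

/-- (Hom.cj) The composition `e ∘ f ∘ s`. -/
def c27.c66 (e : c27 F F) (f : c27 E F) (s : c27 E E) : c27 E F := e ∘L f.c65 s

/-- (Hom.iap) The value of the inverse. -/
def c27.c71 (s : c27 E E) : E → E := (Ring.inverse s).c31

/-- (Cn) The space `ℂ^n`. -/
def c26 (n : ℕ) : Type := Fin n → ℂ

instance c28 : NormedAddCommGroup (c26 n) := Pi.normedAddCommGroup

instance c29 : NormedSpace ℂ (c26 n) := Pi.normedSpace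

/-- (En) Endomorphisms of `ℂ^n`. -/
abbrev c51 (n : ℕ) : Type := c27 (c26 n) (c26 n)

/-- (Du) Linear forms on `ℂ^n`. -/
abbrev c30 (n : ℕ) : Type := c27 (c26 n) ℂ

/-- (dap) The value of a linear form on `ℂ^n`. -/
def c32 (f : c30 n) : c26 n → ℂ := f.c31

variable (M : ι → ℕ) (τ : σ → ι)

/-- (Tn) Multilinear forms with one argument in `ℂ^(M (τ s))` for each `s`. -/
def c25 : Type := ContinuousMultilinearMap ℂ (fun s => Fin (M (τ s)) → ℂ) ℂ

instance c52 : NormedAddCommGroup (c25 M τ) :=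
  ContinuousMultilinearMap.normedAddCommGroup (E := fun s => c26 (M (τ s)))

instance c54 : NormedSpace ℂ (c25 M τ) :=
  ContinuousMultilinearMap.normedSpace (E := fun s => c26 (M (τ s)))

/-- (Mx) Linear maps from multilinear forms to `ℂ^n`. -/
def c55 (n : ℕ) : Type := c27 (c25 M τ) (c26 n)

instance c60 : NormedAddCommGroup (c55 M τ n) := c59

instance c63 : NormedSpace ℂ (c55 M τ n) := c62

variable {M τ}

/-- (Tn.tap) The value of a form. -/
def c25.c34 (μ : c25 M τ) (v : ∀ s, c26 (M (τ s))) : ℂ := μ.toFun v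

/-- (Tn.diag) The value of a form on the diagonal, a multihomogeneous polynomial. -/
def c25.c35 (μ : c25 M τ) (c : ∀ i, c26 (M i)) : ℂ := μ.c34 fun s => c (τ s)

/-- (sbs) Linear substitution in multilinear forms. -/
def c69 (s : ∀ i, c51 (M i)) : c27 (c25 M τ) (c25 M τ) :=
  ContinuousMultilinearMap.compContinuousLinearMapL fun i => s (τ i)

/-- (mav) The value. -/
def c73 (f : c55 M τ n) : c25 M τ → c26 n := c27.c31 f

/-- (chg) Change of bases. -/
def c70 (f : c55 M τ n) (e : c51 n) (s : ∀ i, c51 (M i)) : c55 M τ n := e.c66 f (c69 s)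

/-- (sl) `a i` arguments of type `i`. -/
def c33 (a : ι → ℕ) : (Σ i, Fin (a i)) → ι := Sigma.fst

variable (M τ n) in
/-- (Chart) The chart: Hilbert points `Q l`, marked points, the tensor `Ξ` of the isomorphism
`A_o = (ω_log ⊗ L³)^k` and thickened fields `x j : H⁰(ℙ, O(b)) → H⁰(C, L ⊗ O(b))`; the equation `q` is
homogenised to degree `e q`. -/
def c81 {σ₁ : Option J → Type} {σ₂ Y : Type} [∀ l, Fintype (σ₁ l)] [Fintype σ₂] [TopologicalSpace Y]
    (h : Option J → ℕ) (τ₁ : ∀ l, σ₁ l → ι) (τ₂ : σ₂ → ι) (o : ι) (k : ℕ)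
    (w : c25 M τ → (∀ i, c26 (M i)) → (∀ i, c26 (M i)) → ℂ) (g : ℤ) (m : ι → ℤ) (b : ι → ℕ)
    (e : K → ι → ℕ) (F : K → MvPolynomial J ℂ) (S : Set (J → ℂ)) (π : S → Y) :=
  let u := fun (z : ∀ l, c30 (h l)) l => c32 (z l)
  let U := fun j => range fun y z => u z (some j) y
  let nz := fun c : ∀ i, c26 (M i) => ∀ i, ∃ s, c i s ≠ 0
  let act := fun (t : ι → ℂ) (c : ∀ i, c26 (M i)) i s => t i * c i s
  let pol := fun a => range (c25.c35 (M := M) (τ := c33 a))
  let d := fun q (α : J →₀ ℕ) i => e q i - ∑ j, α j * b i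
  c50 (n := n) (fun (Q : ∀ l, c55 M (τ₁ l) (h l)) (s : ∀ l, c51 (h l)) s' l => c70 (Q l) (s l) s')
    (fun (Ξ : c55 M τ (h none)) s => c70 Ξ (s none))
    (fun (x : ∀ j, c55 M τ₂ (h (some j))) s s' j => c70 (x j) (s (some j)) s')
    (fun s c i => (s i).c31 (c i)) (fun s c i => (s i).c71 (c i)) (fun s z l => (z l).c65 (s l))
    (fun s => (c69 s).c31) (fun s (ζ : ∀ i, c30 (M i)) i => (ζ i).c65 (s i))
    act (fun c => range fun i => update (fun _ _ => 0) i (c i))
    (fun Q => c72 nz (fun _ => c25.c35) u fun l => c73 (Q l))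
    (fun Q p Ξ => c77 (fun c => c o) nz act pol g m (fun _ => c25.c35) u (fun l => c73 (Q l)) k w p
      (c73 Ξ))
    S π c25.c35 (fun x j z μ => u z (some j) (c73 (x j) μ)) (range c27.c31) U
    (fun q => c79 (F q).support
      (c78 (fun i => range fun y (ζ : ∀ i, c30 (M i)) => c32 (ζ i) y) (e q)) U fun α => pol (d q α))
    (fun ζ => (ContinuousMultilinearMap.mkPiAlgebra ℂ _ ℂ).compContinuousLinearMap fun s => ζ (τ₂ s))
    fun q ζ c y => ∑ α ∈ (F q).support,
      coeff α (F q) * (∏ j, y j ^ α j) * ∏ i, c32 (ζ i) (c i) ^ d q α i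

/-- (slot) The arguments of the test forms for `Ξ`: `k` pairs of vectors of the factor `o` and `b i`
vectors of the factor `i`. -/
def c82 (o : ι) (k : ℕ) (b : ι → ℕ) : (Fin k × Bool) ⊕ (Σ i, Fin (b i)) → ι :=
  Sum.elim (fun _ => o) (c33 b)

/-- (wedge) The value of a test form on `(c ∧ v)^k ⊗ c^b`. -/
def c83 {o : ι} {k : ℕ} {b : ι → ℕ} (μ : c25 M (c82 o k b)) (c v : ∀ i, c26 (M i)) : ℂ :=
  ∑ ε : Fin k → Bool, (∏ i, if ε i then -1 else 1) *
    μ.c34 (Sum.rec (fun s => if ε s.1 = s.2 then c o else v o) fun s => c s.1)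

/-- (IsGW) `z` is the contribution of the degree `d` to the Gromov-Witten invariant
`⟨τ_{m₁}(c₁) ⋯ τ_{m_n}(c_n)⟩_{g, β}`, `l i = (m_i, c_i)`, of the target `π : S → Y` with equations `F`,
computed in the charts with large parameters `k`, `D`: `m` is the bidegree of the embedded curve,
`L = O(-1, 1)`, `O(a none) = O(D, D) = ω_log^(-k) ⊗ A_none ⊗ L^(-3 k) ⊗ O(2 k, 0) ⊗ O(b')` and
`O(a (some j)) = O(1, 1) = L ⊗ O(b)`, `b = (2, 0)`. -/
def c84 {Y : Type} [TopologicalSpace Y] (F : K → MvPolynomial J ℂ) (S : Set (J → ℂ)) (π : S → Y)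
    (g : ℤ) (β : c10 Y) (n : ℕ) (l : Fin n → ℕ × c9 Y) (d : ℤ) (z : ℂ) : Prop :=
  ∀ᶠ k : ℕ in atTop, ∀ᶠ D : ℕ in atTop,
    let m : Option Unit → ℤ := fun o => k * (2 * g - 2 + n + 3 * d) + o.elim 0 fun _ => d
    let a : Option J → ℕ := fun l => l.elim D fun _ => 1
    let b : Option Unit → ℕ := fun o => o.elim 2 fun _ => 0
    let b' : Option Unit → ℕ := fun o => o.elim (D - (5 * k + 1)) fun _ => D + 3 * k
    c81 n (fun o => (m o + 1 - g).toNat) (c82 none k b')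
      (fun l => (∑ o, a l * m o + 1 - g).toNat) (fun l => c33 fun _ => a l) (c33 b) none k c83 g m b
      (fun q o => (F q).totalDegree * ∑ _j : J, b o) F S π β l z

end Vale.Agent.P269.Pc
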