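import Mathlib

/-!
# Public vocabulary, part 1: Alexander-Spanier cochains, Borel-Moore classes, quotient orbifolds,
Thom and Euler cocycles, localised Euler classes

A cochain of degree `k` is a function of lists of `k + 1` points. A group is presented as the unit
group of a finite dimensional normed algebra `A`; `act a` is the action of `a`.
-/

noncomputable section

namespace Vale.Agent.P269.Pc

open Set Function Topology Filter Classical

section

variable {X Y : Type}

variable (X) in
/-- (Co) Functions of lists of points. -/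
abbrev c9 : Type := List X → ℂ

variable (X) in
/-- (Bm) Functionals on cochains. -/
abbrev c10 : Type := c9 X → ℂ

/-- (cup) The cup product. -/
def c20 (a b : c9 X) : c9 X := fun l =>
  ∑ p ∈ Finset.range l.length, a (l.take (p + 1)) * b (l.drop p)

/-- (cob) The coboundary. -/
def c13 (a : c9 X) : c9 X := fun l =>
  ∑ i ∈ Finset.range l.length, (-1) ^ i * a (l.eraseIdx i)

/-- (unit) The unit: the constant function one of degree zero. -/
def c21 : c9 X := fun l => if l.length = 1 then 1 else 0

/-- (prd) The product of a list of cochains. -/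
def c22 (a : List (c9 X)) : c9 X := a.foldr c20 c21

/-- (pull) Pull-back along a map. -/
def c18 (f : X → Y) (a : c9 Y) : c9 X := fun l => a (l.map f)

/-- (Bd) `a` is a finite sum of homogeneous cochains of degrees `0, 1, 2, …`. -/
def c11 (a : c9 X) : Prop := a [] = 0 ∧ ∃ N, ∀ l : List X, N < l.length → a l = 0

/-- (IsDeg) `a` is homogeneous of degree `k`. -/
def c16 (k : ℤ) (a : c9 X) : Prop := ∀ l : List X, (l.length : ℤ) ≠ k + 1 → a l = 0

/-- (ind) The indicator function of a subset, a cochain of degree zero. -/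
def c38 (q : X → Prop) : c9 X := fun l => if ∃ y, q y ∧ l = [y] then 1 else 0

/-- (tau) The orientation cocycle of `ℂ^r`, with support at the origin: the product of the coboundaries
of the winding cochains `(z₀, z₁) ↦ log (z₁ / z₀) / (2 π i)` of the coordinates. -/
def c23 (r : ℕ) : c9 (Fin r → ℂ) :=
  c22 (List.ofFn fun i => c18 (fun z => z i) (c13 fun l =>
    if l.length = 2 then Complex.log (l.getD 1 0 / l.getD 0 0) / ((2 : ℕ) * Real.pi * Complex.I) else 0))

variable [TopologicalSpace X]

/-- (supp) The support: the points near which `a` does not vanish on all lists of nearby points. -/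
def c12 (a : c9 X) : Set X := {x | ∀ U ∈ 𝓝 x, ∃ l : List X, (∀ y ∈ l, y ∈ U) ∧ a l ≠ 0}

/-- (Cohom) `a` and `b` are cohomologous through a cochain with support in `U`. -/
def c17 (U : Set X) (a b : c9 X) : Prop :=
  ∃ c, c11 c ∧ c12 c ⊆ U ∧ c12 (fun l => a l - b l - c13 c l) = ∅

/-- (Zc) Cocycles with compact support. -/
def c14 (a : c9 X) : Prop := c11 a ∧ IsCompact (c12 a) ∧ c12 (c13 a) = ∅

/-- (IsBM) Borel-Moore classes: linear functionals on the cocycles with compact support (extended by zero)
that vanish on the coboundaries of cochains with compact support. -/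
def c15 (β : c10 X) : Prop :=
  (∀ a, ¬c14 a → β a = 0) ∧
  (∀ (s : ℂ) a b, c14 a → c14 b → β (fun l => s * a l + b l) = s * β a + β b) ∧
  ∀ a c, c11 c → IsCompact (c12 c) → c12 (fun l => a l - c13 c l) = ∅ → β a = 0

end

variable {A W P E : Type} [NormedRing A] [NormedAlgebra ℂ A] [NormedAddCommGroup W] [NormedSpace ℂ W]
  [NormedAddCommGroup E] [NormedSpace ℂ E] [AddCommGroup P] [Module ℂ P] [TopologicalSpace P]
  (act : A → W → W) (ρ : A → P → P) (S : Set W) (B N : W → Submodule ℂ P)

/-- (Orb) The orbit relation. -/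
def c3 (x y : S) : Prop := ∃ a, IsUnit a ∧ y.1 = act a x.1

/-- (Quo) The orbit space `S / Aˣ`. -/
def c4 : Type := Quot (c3 act S)

instance c7 : TopologicalSpace (c4 act S) := instTopologicalSpaceQuot

/-- (pick) A representative of an orbit. -/
def c37 (z : c4 act S) : W := (Quot.out z).1

/-- (Ori) For every holomorphic chart of the orbit space with values in `E`, centred at a point with
trivial stabiliser (a holomorphic map `φ` from an open neighbourhood `U` of `0` to `S`, transverse
to the orbit, that induces an open embedding of `U` in the orbit space), `q` holds and `β` takes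
the value one on the cocycle `τ` at the centre. -/
def c19 (τ : c9 E) (q : Prop) (β : c10 (c4 act S)) : Prop :=
  ∀ (U : Set E) (φ : U → S) (h : 0 ∈ U), IsOpen U →
    (∃ Φ : E → W, AnalyticOnNhd ℂ Φ U ∧ (∀ z, (φ z).1 = Φ z.1) ∧
      Injective (fderiv ℂ (fun y : A × E => act y.1 (Φ y.2)) (1, 0)) ∧
      ∀ a, IsUnit a → act a (Φ 0) = Φ 0 → a = 1) →
    let ψ : U → c4 act S := fun z => Quot.mk _ (φ z)
    IsOpenEmbedding ψ → q ∧ ∀ a, c14 a → (∀ y, c12 a y → y = ψ ⟨0, h⟩) →
      c17 {z | z.1 = 0} (c18 ψ a) (c18 Subtype.val τ) → β a = 1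

/-- (IsFund) `β` is the fundamental class of the orbit space, a complex orbifold of pure dimension `d` with
trivial generic stabiliser: it has degree `2 d` and takes the value one on the orientation cocycle
at the centre of every chart. -/
def c24 (β : c10 (c4 act S)) : Prop :=
  c15 β ∧ ∃ d : ℕ, (∀ j a, j ≠ 2 * (d : ℤ) → c16 j a → β a = 0) ∧
    ∀ r, c19 act S (c23 r) (r = d) β

/-- (Fib) Vectors in the subspaces `B x`. -/
def c39 : Type := {z : W × P // z.1 ∈ S ∧ z.2 ∈ B z.1}

/-- (Fib.pr) The underlying pair. -/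
def c39.c40 (z : c39 S B) : W × P := z.1

/-- (TRel) The relation defining the total space. -/
def c41 (x y : c39 S B) : Prop :=
  let u := x.c40 S B
  let v := y.c40 S B
  ∃ a, IsUnit a ∧ v.1 = act a u.1 ∧ v.2 - ρ a u.2 ∈ N v.1

/-- (Tot) The total space of the orbifold vector bundle over `S / Aˣ` with fibres `B x / N x`, where
`N x ⊆ B x` are subspaces of a vector space `P` on which `a` acts by `ρ a`. -/
def c42 : Type := Quot (c41 act ρ S B N)

instance c43 : TopologicalSpace (c42 act ρ S B N) :=
  @instTopologicalSpaceQuot _ _ instTopologicalSpaceSubtype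

/-- (At) `z` is the class of the vector `v` at the point `x`. -/
def c44 (x : W) (v : P) (z : c42 act ρ S B N) : Prop := ∃ y, y.c40 S B = (x, v) ∧ z = Quot.mk _ y

/-- (IsThom) `t` is a Thom cocycle of a bundle with total space `X`, where `T x v z` says that `z` is the class of
the vector `v` in the fibre `B x / N x`: a cocycle with support in the zero section that restricts to
the orientation cocycle, in degree `2 r`, on every linear parametrisation of a fibre. -/
def c45 {X Z : Type} [TopologicalSpace X] (B N : Z → Submodule ℂ P) (T : Z → P → X → Prop)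
    (t : c9 X) : Prop :=
  c11 t ∧ c12 (c13 t) = ∅ ∧ (∀ z ∈ c12 t, ∃ x, T x 0 z) ∧
    ∀ (r : ℕ) (φ : (Fin r → ℂ) → X) (x : Z) (v : Fin r → P),
      (∀ c : Fin r → ℂ, ∑ i, c i • v i ∈ N x → ∀ i, c i = 0) →
      Submodule.span ℂ (range v) ⊔ N x = B x → (∀ c, T x (∑ i, c i • v i) (φ c)) →
      c17 {c | ∀ i, c i = 0} (c18 φ t) (c23 r) ∧ ∀ c l, l.length ≠ 2 * r → t (φ c :: l) = 0

/-- (IsLoc) `e` is the pull-back of a Thom cocycle of that bundle along the section given by an equivariant
map `σ` with `σ x ∈ B x`. -/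
def c46 (σ : W → P) (e : c9 (c4 act S)) : Prop :=
  let T := c44 act ρ S B N
  ∃ s t, c45 B N T t ∧ e = c18 s t ∧
    ∀ z, let x := c37 act S z; T x (if σ x ∈ B x then σ x else 0) (s z)

/-- (IsEuler) `e` is a cocycle representing the Euler class (for a line bundle, `c₁`) of the bundle with fibres
`span (B' x) / span (N' x)`: the pull-back of a Thom cocycle along the zero section. -/
def c48 (B' N' : W → Set P) : c9 (c4 act S) → Prop :=
  c46 act ρ S (fun x => Submodule.span ℂ (B' x)) (fun x => Submodule.span ℂ (N' x)) fun _ => 0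

/-- (IsVir) `v` is the virtual fundamental class of `sol / Aˣ`, the zero set of the section `σ` over the
smooth space `S / Aˣ` with obstruction spaces `obs x / van x`: on an invariant open neighbourhood `O`
of `sol` in `S`, the obstruction bundle is extended as `pol / N` for a continuous invariant family
`N` of subspaces complementary to `obs`, and `v` is the fundamental class of `O / Aˣ` capped with the
pull-back of the Thom class by the section `σ`. -/
def c47 (sol : Set W) (pol : Set P) (van obs : W → Set P) (σ : W → P)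
    (v : c10 (c4 act sol)) : Prop :=
  let B := fun _ : W => Submodule.span ℂ pol
  ∃ (O : Set W) (N : W → Submodule ℂ P) (r : ℕ) (β : c10 (c4 act O))
    (e : c9 (c4 act O)) (i : c4 act sol → c4 act O),
    (∀ x : sol, ∃ y : O, y.1 = x.1 ∧ i (Quot.mk _ x) = Quot.mk _ y) ∧
    (∃ U, IsOpen U ∧ O = S ∩ U) ∧ (∀ a, IsUnit a → ∀ x ∈ O, act a x ∈ O) ∧
    LocallyCompactSpace O ∧ T2Space (c4 act O) ∧ T2Space (c42 act ρ O B N) ∧
    (∀ x ∈ O, van x ⊆ N x ∧ (N x : Set P) ⊆ pol ∧ Module.finrank ℂ (N x) = r ∧
      (σ x ∈ N x → x ∈ sol) ∧ ∀ a, IsUnit a → ∀ κ ∈ N x, ρ a κ ∈ N (act a x)) ∧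
    IsClosed {z : O × P | z.2 ∈ N z.1} ∧
    (∀ x ∈ sol, (∀ κ ∈ obs x, κ ∈ N x → κ ∈ van x) ∧ ∀ κ ∈ pol, ∃ κ' ∈ obs x, κ - κ' ∈ N x) ∧
    c24 act O β ∧ c46 act ρ O B N σ e ∧ c15 v ∧
    ∀ a, c11 a → IsCompact (c12 a) → (∀ z, ¬c12 (c13 a) (i z)) →
      v (c18 i a) = β (c20 a e)

/-- (Intg) `z` is the integral of `∏ ψ_i^{m_i} ev_i^* c_i`, `l i = (m_i, c_i)`, against the virtual class
of the open and closed part of the compact moduli space `sol / Aˣ` where the domain is connected and
the class is `β`. The point `x` has the curve `C x / (units of A')`, the marked points `p x i`, and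
`V x c y` says that the map has the value `y` at `c`; `ψ_i = - c₁(T_i)` for the tangent line `T_i`
of the curve at the marked point (the tangent space of `C x` modulo the orbit directions). -/
def c49 {A' Y : Type} [NormedRing A'] [NormedAlgebra ℂ A'] [TopologicalSpace Y] {n : ℕ}
    (sol : Set W) (pol : Set P) (van obs : W → Set P) (σ : W → P)
    (act' : A' → E → E) (C : W → Set E) (V : W → E → Y → Prop) (p : W → Fin n → E)
    (ρ' : Fin n → A → E → E) (dir : E → Set E)
    (β : c10 Y) (l : Fin n → ℕ × c9 Y) (z : ℂ) : Prop :=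
  let o := c37 act sol
  ∃ (v : _) (ev : Fin n → c4 act sol → Y) (e : Fin n → c9 (c4 act sol)),
    let a := c20 (c38 fun y => IsConnected (C (o y)) ∧ ∃ γ f, c24 act' (C (o y)) γ ∧
        (∀ c, V (o y) (c37 act' _ c) (f c)) ∧ ∀ a, c14 a → β a = γ (c18 f a))
      (c22 (List.ofFn fun i => c20 (c22 (List.replicate (l i).1 fun u => -e i u))
        (c18 (ev i) (l i).2)))
    c47 act ρ S sol pol van obs σ v ∧ (∀ i y, V (o y) (p (o y) i) (ev i y)) ∧
    (∀ i, c48 act (ρ' i) sol (fun x => {v | ∃ γ : ℂ → E, AnalyticAt ℂ γ 0 ∧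
      (∀ᶠ t in 𝓝 0, γ t ∈ C x) ∧ γ 0 = p x i ∧ v = deriv γ 0}) (fun x => dir (p x i)) (e i)) ∧
    CompactSpace (c4 act sol) ∧ c14 a ∧ z = v a

end Vale.Agent.P269.Pc
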