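import Vale.Agent.P269.Pc.Map

/-!
# Public vocabulary, part 3: Hodge types, supercommutative series, Virasoro operators,
complete intersections
-/

noncomputable section

namespace Vale.Agent.P269.Pc

open Set Function Topology Filter MvPolynomial Classical

section

variable {A E Y : Type} [NormedRing A] [NormedAddCommGroup E] [NormedSpace ℂ E] (act : A → E → E)
  (S : Set E) (T : E → Set E)

/-- (IsCan) `e` represents `c₁(K_X)` for `X = S / Aˣ` of dimension `n`, where `a` acts on `E` by the scalar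
`χ a` and `T x` is the tangent space of `S`. The fibre of `K_X` at `x` is the space of alternating
`n`-forms on `T x` that vanish on the direction `x` of the orbit. -/
def c100 (χ : A → ℂ) (n : ℕ) : c9 (c4 act S) → Prop :=
  c48 act (fun a (ω : E [⋀^Fin n]→L[ℂ] ℂ) => ω.compContinuousLinearMap ((χ a)⁻¹ • .id ℂ E)) S
    (fun x => {ω | ∀ v, (∀ s, v s ∈ T x) → (∃ s, v s = x) → ω v = 0})
    fun x => {ω | ∀ v, (∀ s, v s ∈ T x) → ω v = 0}

/-- (dk) The derivative of order `k`. -/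
def c92 {V : Type} [NormedAddCommGroup V] [NormedSpace ℝ V] (k : ℕ) (f : V → ℂ) (x : V)
    (v : Fin k → V) : ℂ := (iteratedFDeriv ℝ k f x).toFun v

/-- (IsHodge) The cocycle `a` represents a class in `H^{p,q}`: it has degree `k = p + q`, it is smooth near the
diagonal and its differential form `∑ sign σ ∂_{v σ 1} ⋯ ∂_{v σ k} a(x, ·, …, ·)` (the de Rham
representative, pulled back by `π` to the cone `S`) has type `(p, q)`. -/
def c93 (π : S → Y) (p q : ℕ) (a : c9 Y) : Prop :=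
  let k := p + q
  let k' := k + 1
  c16 k a ∧ ∀ x : S, ∃ f : (Fin k' → E) → ℂ,
    let ω := fun v : Fin k → E => ∑ σ : Equiv.Perm (Fin k), (Equiv.Perm.sign σ : ℤ) *
      c92 k f (fun _ => x) fun i => Pi.single i.succ (v (σ i))
    ContDiff ℝ (⊤ : ℕ∞) f ∧
      (∀ᶠ z : Fin k' → S in 𝓝 fun _ => x, f (fun i => z i) = a (List.ofFn fun i => π (z i))) ∧
      ∀ v (s : ℂ), (∀ i, v i ∈ T x) → ω (fun i => s • v i) = s ^ p * (starRingEnd ℂ s) ^ q * ω v

end

/-! Formal series in supercommuting variables `t^a_m`, `(m, a) : ℕ × I`, Novikov variables `Q^β` and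
`ħ`: `F [i₁, …, i_n] β j` is the coefficient of `Q^β ħ^j` in `∂_{i_n} ⋯ ∂_{i₁} F` at `t = 0`, that is
`F = ∑ (1 / n!) F [i₁, …, i_n] t^{i₁} ⋯ t^{i_n}`; `π a` is the cohomological degree of `a`. -/

variable {I Γ : Type} [AddCommGroup Γ] [Fintype I] [DecidableEq I] (π : I → ℕ)

/-- (sg) The Koszul sign. -/
def c86 (i : ℕ × I) (l : List (ℕ × I)) : ℂ := (-1) ^ (π i.2 * (l.map fun j => π j.2).sum)

/-- (tmul) Multiplication by the variable `t^i`. -/
def c87 (i : ℕ × I) (F : List (ℕ × I) → ℂ) (l : List (ℕ × I)) : ℂ :=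
  ∑ s : Fin l.length, if l.get s = i then c86 π i (l.take s) * F (l.eraseIdx s) else 0

/-- (smul) The product, determined by the constant terms and the Leibniz rule. -/
def c89 (l : List (ℕ × I)) : (F G : List (ℕ × I) → Γ → ℤ → ℂ) → Γ → ℤ → ℂ :=
  l.foldr (fun i P F G β j => P (fun l => F (i :: l)) G β j +
      P (fun l β j => c86 π i l * F l β j) (fun l => G (i :: l)) β j)
    fun F G β j => ∑ᶠ x : Γ × ℤ, F [] x.1 x.2 * G [] (β - x.1) (j - x.2)

/-- (sexp) The exponential. -/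
def c90 (F : List (ℕ × I) → Γ → ℤ → ℂ) (l : List (ℕ × I)) (β : Γ) (j : ℤ) : ℂ :=
  ∑ᶠ n : ℕ, (fun P l => c89 π l F P)^[n]
    (fun l β j => if l = [] ∧ β = 0 ∧ j = 0 then 1 else 0) l β j / n.factorial

/-- (esy) Getzler's `[x]^k_i = e_{k+1-i}(x, x + 1, …, x + k)`, for `k = k' - 1`. -/
def c85 (k' i : ℕ) (x : ℂ) : ℂ :=
  (∏ j ∈ Finset.range k', (Polynomial.X + Polynomial.C (x + j))).coeff i

/-- (virL) The coefficient `l`, `ħ^j` of `L_k F`, `k = k' - 1`, for the Virasoro operator `L_k` of a target of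
dimension `n` with grading `μ a = p a - n / 2`, Poincaré pairing `η`, matrix `R` of `c₁(TX) ∪` and
coordinates `u` of the unit. -/
def c88 (p : I → ℕ) (u : I → ℂ) (η R : Matrix I I ℂ) (n k' : ℕ) (F : ℤ → List (ℕ × I) → ℂ) (j : ℤ)
    (l : List (ℕ × I)) : ℂ :=
  let h : ℂ := 1 / (2 : ℕ)
  let μ : I → ℂ := fun a => p a - h * n
  let Q : ℕ → Matrix I I ℂ := fun i => R ^ i
  (∑ i ∈ Finset.range (k' + 1),
    ((∑ᶠ m : ℕ, if i + 1 ≤ m + k' then ∑ a, ∑ b, c85 k' i (μ a + m + h) * Q i a b *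
        c87 π (m, a) (fun l => F j ((m + k' - (i + 1), b) :: l)) l else 0) -
      (∑ a, ∑ b, c85 k' i (h * ((3 : ℕ) - n)) * u a * Q i a b * F j ((k' - i, b) :: l)) +
      ∑ m ∈ Finset.range (k' - (i + 1)), ∑ a, ∑ b, ∑ c,
        h * (-1) ^ (m + 1) * η⁻¹ a b * c85 k' i (μ b - m - h) * Q i b c *
          F (j - 1) ((m, a) :: (k' - (i + 2) - m, c) :: l))) +
  (∑ a, ∑ b, h * (Q k' * η) a b * c87 π (0, a) (c87 π (0, b) (F (j + 1))) l) +
  (if k' = 1 then ∑ a, (-1) ^ π a * (h ^ 4 - h ^ 2 * μ a ^ 2) else 0) * F j l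

/-- (Virasoro) The Virasoro constraints for a target `Y` of dimension `n` with Hodge types `Hdg`, fundamental
class `Fund`, canonical class `Can` and invariants `GW`. The invariants are well defined numbers `N`;
they vanish unless `d ≥ 0` is the degree of `β`, in the stable range, and finitely many classes `β`
occur for given `g`, `n`, `d` (so all sums in `c90` are finite);
there are cocycles `φ a` of Hodge types `(p a, q a)` whose classes form a basis, and for all such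
bases the operators `L_k`, `k ≥ -1`, annihilate `Z = exp (∑ ħ^(g-1) F_g)`. -/
def c91 {Y : Type} [TopologicalSpace Y] (Hdg : ℕ → ℕ → c9 Y → Prop) (Fund : c10 Y → Prop)
    (Can : c9 Y → Prop) (GW : ℤ → c10 Y → ∀ n, (Fin n → ℕ × c9 Y) → ℤ → ℂ → Prop) (n : ℕ) : Prop :=
  let Dt := fun (B : ℕ) (φ : Fin B → c9 Y) (p q : Fin B → ℕ) (η R : Matrix (Fin B) (Fin B) ℂ)
      (u : Fin B → ℂ) =>
    let E := fun x (y : Fin B → ℂ) => c17 univ x fun l => ∑ b, y b * φ b l
    (∀ a, c14 (φ a) ∧ Hdg (p a) (q a) (φ a)) ∧ (∀ x, c14 x → ∃! y, E x y) ∧ E c21 u ∧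
      (∃ X, Fund X ∧ ∀ a b, η a b = X (c20 (φ a) (φ b))) ∧
      ∃ e, Can e ∧ ∀ a, E (fun l => -c20 e (φ a) l) (R a)
  ∃ (N : ℤ → c10 Y → ∀ n, (Fin n → ℕ × c9 Y) → ℤ → ℂ) (h : c9 Y),
  (∀ g β n l d z, 0 ≤ g → c15 β → (∀ i, c14 (l i).2) → (GW g β n l d z ↔ z = N g β n l d)) ∧
  (∀ g β n l d, N g β n l d ≠ 0 → 0 ≤ g ∧ c15 β ∧ β h = d ∧ 0 ≤ d ∧ 0 < 2 * g - 2 + n + 3 * d) ∧
  (∀ g n d, {β | ∃ l, N g β n l d ≠ 0}.Finite) ∧
  (∃ B φ p q η R u, Dt B φ p q η R u) ∧
  ∀ B φ p q η R u, Dt B φ p q η R u →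
    let π := fun a => p a + q a
    ∀ k β j l, c88 π p u η R n k (fun j l => c90 π (fun l β j =>
      ∑ᶠ d, N (j + 1) β l.length (fun i => ((l.get i).1, φ (l.get i).2)) d) l β j) j l = 0

variable {J K : Type} [Fintype J] (F : K → MvPolynomial J ℂ)

/-- (cone) The cone over the subvariety of projective space cut out by the polynomials `F k`. -/
def c2 : Set (J → ℂ) := {x | (∃ j, x j ≠ 0) ∧ ∀ k, eval x (F k) = 0}

/-- (scal) The action of `ℂˣ`. -/
def c5 (t : Unit → ℂ) (x : J → ℂ) (j : J) : ℂ := t () * x j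

/-- (Var) The subvariety of projective space. -/
def c6 : Type := c4 c5 (c2 F)

instance c8 : TopologicalSpace (c6 F) := c7 _ _

/-- (Conj) The Virasoro conjecture for the subvariety, of dimension `n` and cut out by equations of
degrees `d`; `T x` is the tangent space of the cone. The last clauses check the definition of the
invariants in positive degree: the primary invariants of degree one of a line and the 27 lines on a
cubic surface. -/
def c102 (d : K → ℕ) (n : ℕ) : Prop :=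
  let S := c2 F
  let T := fun x : J → ℂ => {v | ∀ k, ∑ j, v j * eval x (pderiv j (F k)) = 0}
  let Y := c6 F
  let π : S → Y := Quot.mk _
  let X : c10 Y → Prop := c24 c5 S
  let G := c84 F S π
  c91 (c93 S T π) X (c100 c5 S T (fun t => t ()) n) G n ∧
  (n = 1 → (∀ k, d k = 1) → ∀ β, X β → ∀ m (a : Fin m → c9 Y), (∀ i, c14 (a i) ∧ c16 2 (a i)) →
    G 0 β m (fun i => (0, a i)) 1 (∏ i, β (a i))) ∧
  (n = 2 → Fintype.card J = 4 → (∀ k, d k = 3) → ∀ z : c10 Y → ℂ,
    (∀ β, c15 β → G 0 β 0 Fin.elim0 1 (z β)) → ∑ᶠ β ∈ {β | c15 β}, z β = 27)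

end Vale.Agent.P269.Pc
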